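import Mathlib

/-!
Kakeya sets with a Lipschitz choice of base points on a set of directions of positive measure.
-/

open MeasureTheory Set Metric Module
open scoped NNReal ENNReal Pointwise

namespace Vale.Agent.Results.P127.LipschitzSelection

variable {n : ℕ}

/-- The retraction to the closed unit ball after scaling by `1 / ε`. -/
theorem lipschitz_cap {ε : ℝ} (hε : 0 < ε) :
    LipschitzWith (Real.toNNReal (2 / ε))
      (fun x : EuclideanSpace ℝ (Fin n) => (max ‖x‖ ε)⁻¹ • x) := by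
  refine LipschitzWith.of_dist_le_mul fun x y => ?_
  rw [dist_eq_norm, dist_eq_norm, Real.coe_toNNReal _ (by positivity)]
  set p := max ‖x‖ ε
  set q := max ‖y‖ ε
  have hp : ε ≤ p := le_max_right _ _
  have hq : ε ≤ q := le_max_right _ _
  have hp0 : 0 < p := hε.trans_le hp
  have hq0 : 0 < q := hε.trans_le hq
  have e : p⁻¹ • x - q⁻¹ • y = p⁻¹ • (x - y) + (p⁻¹ - q⁻¹) • y := by
    rw [smul_sub, sub_smul]; abel
  have h1 : |p - q| ≤ ‖x - y‖ :=
    (abs_max_sub_max_le_abs _ _ _).trans (abs_norm_sub_norm_le x y)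
  have h2 : |p⁻¹ - q⁻¹| * ‖y‖ ≤ p⁻¹ * ‖x - y‖ := by
    have : p⁻¹ - q⁻¹ = p⁻¹ * (q⁻¹ * (q - p)) := by field_simp
    rw [this, abs_mul, abs_mul, abs_of_pos (inv_pos.2 hp0), abs_of_pos (inv_pos.2 hq0),
      abs_sub_comm, mul_assoc]
    refine mul_le_mul_of_nonneg_left ?_ (inv_pos.2 hp0).le
    have hy : q⁻¹ * ‖y‖ ≤ 1 := by
      rw [inv_mul_le_iff₀ hq0, mul_one]; exact le_max_left _ _
    nlinarith [abs_nonneg (p - q), norm_nonneg (x - y)]
  calc ‖p⁻¹ • x - q⁻¹ • y‖ ≤ ‖p⁻¹ • (x - y)‖ + ‖(p⁻¹ - q⁻¹) • y‖ := e ▸ norm_add_le _ _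
    _ ≤ p⁻¹ * ‖x - y‖ + p⁻¹ * ‖x - y‖ := by
      rw [norm_smul, norm_smul, Real.norm_eq_abs, Real.norm_eq_abs,
        abs_of_pos (inv_pos.2 hp0)]
      linarith
    _ ≤ 2 / ε * ‖x - y‖ := by
      have : p⁻¹ ≤ ε⁻¹ := inv_anti₀ hε hp
      rw [div_eq_mul_inv]
      nlinarith [norm_nonneg (x - y)]

/-- One of any `n + 1` distinct shifts of an endomorphism is invertible. -/
theorem exists_det_ne_zero (M : EuclideanSpace ℝ (Fin n) →L[ℝ] EuclideanSpace ℝ (Fin n))
    (c : ℕ → ℝ) (hc : Function.Injective c) :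
    ∃ j ≤ n, (M + c j • ContinuousLinearMap.id ℝ (EuclideanSpace ℝ (Fin n))).det ≠ 0 := by
  by_contra h
  push Not at h
  have hroot : ∀ j ≤ n, -c j ∈ (LinearMap.charpoly M.toLinearMap).roots := by
    intro j hj
    rw [Polynomial.mem_roots (LinearMap.charpoly_monic _).ne_zero,
      ← Module.End.hasEigenvalue_iff_isRoot_charpoly]
    have hk := LinearMap.bot_lt_ker_of_det_eq_zero (h j hj)
    obtain ⟨v, hv, hv0⟩ := Submodule.exists_mem_ne_zero_of_ne_bot hk.ne'
    refine Module.End.hasEigenvalue_of_hasEigenvector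
      (x := v) ⟨Module.End.mem_eigenspace_iff.2 ?_, hv0⟩
    have : M v + c j • v = 0 := by simpa using hv
    simpa [neg_smul] using eq_neg_of_add_eq_zero_left this
  have hsub : (Finset.range (n + 1)).image (fun j => -c j) ⊆
      (LinearMap.charpoly M.toLinearMap).roots.toFinset := by
    intro z hz
    obtain ⟨j, hj, rfl⟩ := Finset.mem_image.1 hz
    exact Multiset.mem_toFinset.2 (hroot j (Nat.lt_succ_iff.1 (Finset.mem_range.1 hj)))
  have h1 := Finset.card_le_card hsub
  rw [Finset.card_image_of_injective _ (fun i j hij => hc (neg_injective hij)),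
    Finset.card_range] at h1
  have h2 := (Multiset.toFinset_card_le _).trans
    (Polynomial.card_roots' (LinearMap.charpoly M.toLinearMap))
  rw [LinearMap.charpoly_natDegree, finrank_euclideanSpace_fin] at h2
  omega

/-- A map with invertible differential on a set of positive measure has image of positive
measure. -/
theorem image_ne_zero (hn : 0 < n) {f : EuclideanSpace ℝ (Fin n) → EuclideanSpace ℝ (Fin n)}
    {f' : EuclideanSpace ℝ (Fin n) → EuclideanSpace ℝ (Fin n) →L[ℝ] EuclideanSpace ℝ (Fin n)}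
    {s : Set (EuclideanSpace ℝ (Fin n))} (hs : MeasurableSet s) (hμ : volume s ≠ 0)
    (hf' : ∀ x ∈ s, HasFDerivAt f (f' x) x) (hdet : ∀ x ∈ s, (f' x).det ≠ 0) :
    volume (f '' s) ≠ 0 := by
  classical
  have : Nonempty (Fin n) := ⟨⟨0, hn⟩⟩
  have : Nontrivial (EuclideanSpace ℝ (Fin n)) :=
    Module.nontrivial_of_finrank_pos (R := ℝ) (by simpa using hn)
  let r : (EuclideanSpace ℝ (Fin n) →L[ℝ] EuclideanSpace ℝ (Fin n)) → ℝ≥0 := fun A =>
    if h : A.det ≠ 0 then ‖((A.toContinuousLinearEquivOfDetNeZero h).symm :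
      EuclideanSpace ℝ (Fin n) →L[ℝ] EuclideanSpace ℝ (Fin n))‖₊⁻¹ / 2 else 1
  have rpos : ∀ A, r A ≠ 0 := by
    intro A
    by_cases h : A.det ≠ 0
    · simp only [r, dif_pos h]
      exact (div_pos (inv_pos.2 (ContinuousLinearEquiv.nnnorm_symm_pos _)) two_pos).ne'
    · simp only [r, dif_neg h]; exact one_ne_zero
  have hw : ∀ x ∈ s, HasFDerivWithinAt f (f' x) s x := fun x hx => (hf' x hx).hasFDerivWithinAt
  obtain ⟨t, A, -, htm, hcov, happ, hA⟩ :=
    exists_partition_approximatesLinearOn_of_hasFDerivWithinAt f s f' hw r rpos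
  obtain ⟨k, hk⟩ : ∃ k, volume (s ∩ t k) ≠ 0 := by
    by_contra h
    push Not at h
    apply hμ
    rw [show s = ⋃ k, s ∩ t k by rw [← inter_iUnion, inter_eq_left.2 hcov]]
    exact measure_iUnion_null h
  obtain ⟨y, hy, hAy⟩ := hA (nonempty_of_measure_ne_zero hμ) k
  have hd : (A k).det ≠ 0 := hAy ▸ hdet y hy
  have happk := happ k
  simp only [r, dif_pos hd] at happk
  have hinj : InjOn f (s ∩ t k) := by
    have e : ((A k).toContinuousLinearEquivOfDetNeZero hd :
        EuclideanSpace ℝ (Fin n) →L[ℝ] EuclideanSpace ℝ (Fin n)) = A k := by ext x; simp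
    revert happk
    generalize hc' : ‖(((A k).toContinuousLinearEquivOfDetNeZero hd).symm :
      EuclideanSpace ℝ (Fin n) →L[ℝ] EuclideanSpace ℝ (Fin n))‖₊⁻¹ / 2 = c
    rw [← e]
    intro happk
    refine happk.injOn (Or.inr ?_)
    rw [← hc']
    exact half_lt_self (inv_pos.2 (ContinuousLinearEquiv.nnnorm_symm_pos _))
  intro h0
  have himg : volume (f '' (s ∩ t k)) = 0 := measure_mono_null (image_mono inter_subset_left) h0
  rw [← lintegral_abs_det_fderiv_eq_addHaar_image volume (hs.inter (htm k))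
    (fun x hx => (hf' x hx.1).hasFDerivWithinAt) hinj] at himg
  have hae := (lintegral_eq_zero_iff' (aemeasurable_ofReal_abs_det_fderivWithin volume
    (hs.inter (htm k)) fun x hx => (hf' x hx.1).hasFDerivWithinAt)).1 himg
  apply hk
  have hfalse : ∀ᵐ x ∂(volume.restrict (s ∩ t k)), False := by
    filter_upwards [hae, ae_restrict_mem (hs.inter (htm k))] with x hx hx'
    simp only [Pi.zero_apply, ENNReal.ofReal_eq_zero] at hx
    exact hdet x hx'.1 (abs_eq_zero.1 (le_antisymm hx (abs_nonneg _)))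
  simpa [ae_iff] using hfalse

/-- If the segments of a set can be based at a Lipschitz point on a set of directions of positive
surface measure, then the set has positive volume and full Hausdorff dimension. -/
theorem result :
    ∀ (n : ℕ), 2 ≤ n → ∀ (K : Set (EuclideanSpace ℝ (Fin n)))
      (A : Set (sphere (0 : EuclideanSpace ℝ (Fin n)) 1))
      (a : EuclideanSpace ℝ (Fin n) → EuclideanSpace ℝ (Fin n)) (L : ℝ≥0),
      MeasurableSet A → (volume : Measure (EuclideanSpace ℝ (Fin n))).toSphere A ≠ 0 →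
      LipschitzOnWith L a (Subtype.val '' A) →
      (∀ e ∈ A, ∀ t ∈ Icc (0 : ℝ) 1, a e + t • (e : EuclideanSpace ℝ (Fin n)) ∈ K) →
      0 < volume K ∧ dimH K = n := by
  intro n hn K A a L hA hpos hlip hseg
  obtain ⟨g, hg, hag⟩ := hlip.extend_finite_dimension
  set C : Set (EuclideanSpace ℝ (Fin n)) := Ioo (0 : ℝ) 1 • (Subtype.val '' A) with hC
  have hCne : volume C ≠ 0 := by
    intro h
    apply hpos
    rw [Measure.toSphere_apply' _ hA, ← hC, h, mul_zero]
  have hmem : ∀ x ∈ C, 0 < ‖x‖ ∧ ‖x‖ < 1 ∧ ‖x‖⁻¹ • x ∈ Subtype.val '' A := by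
    rintro x ⟨r, hr, e, he, rfl⟩
    obtain ⟨e', he', rfl⟩ := he
    have hne : ‖(e' : EuclideanSpace ℝ (Fin n))‖ = 1 := mem_sphere_zero_iff_norm.1 e'.2
    have hnr : ‖r • (e' : EuclideanSpace ℝ (Fin n))‖ = r := by
      rw [norm_smul, hne, mul_one, Real.norm_eq_abs, abs_of_pos hr.1]
    simp only [hnr]
    exact ⟨hr.1, hr.2, ⟨e', he', by rw [smul_smul, inv_mul_cancel₀ hr.1.ne', one_smul]⟩⟩
  have hCeq : C = {x | 0 < ‖x‖ ∧ ‖x‖ < 1} ∩
      (fun x : EuclideanSpace ℝ (Fin n) => ‖x‖⁻¹ • x) ⁻¹' (Subtype.val '' A) := by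
    ext x
    refine ⟨fun hx => ⟨⟨(hmem x hx).1, (hmem x hx).2.1⟩, (hmem x hx).2.2⟩, ?_⟩
    rintro ⟨⟨h0, h1⟩, hx⟩
    exact ⟨‖x‖, ⟨h0, h1⟩, _, hx, by simp [smul_smul, h0.ne']⟩
  have hCm : MeasurableSet C := by
    rw [hCeq]
    refine MeasurableSet.inter ?_ ((measurable_norm.inv.smul measurable_id)
      ((MeasurableEmbedding.subtype_coe isClosed_sphere.measurableSet).measurableSet_image.2 hA))
    exact (measurableSet_lt measurable_const measurable_norm).inter
      (measurableSet_lt measurable_norm measurable_const)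
  obtain ⟨k, hk⟩ : ∃ k : ℕ, volume (C ∩ {x | 1 / ((k : ℝ) + 1) < ‖x‖}) ≠ 0 := by
    by_contra h
    push Not at h
    apply hCne
    refine measure_mono_null (fun x hx => ?_) (measure_iUnion_null h)
    obtain ⟨k, hk⟩ := exists_nat_one_div_lt (hmem x hx).1
    exact mem_iUnion.2 ⟨k, hx, hk⟩
  set ε : ℝ := 1 / ((k : ℝ) + 1) with hε
  have hεpos : 0 < ε := by positivity
  set G : EuclideanSpace ℝ (Fin n) → EuclideanSpace ℝ (Fin n) :=
    fun x => g ((max ‖x‖ ε)⁻¹ • x) with hG
  have hGlip := hg.comp (lipschitz_cap (n := n) hεpos)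
  have hdiff : ∀ᵐ x : EuclideanSpace ℝ (Fin n), DifferentiableAt ℝ G x :=
    hGlip.ae_differentiableAt
  let c : ℕ → ℝ := fun j => 1 / ((j : ℝ) + 1)
  have hc : Function.Injective c := by
    intro i j hij
    simpa [c] using hij
  let S : ℕ → Set (EuclideanSpace ℝ (Fin n)) := fun j =>
    (C ∩ {x | ε < ‖x‖}) ∩ {x | DifferentiableAt ℝ G x} ∩
      {x | (fderiv ℝ G x + c j • ContinuousLinearMap.id ℝ (EuclideanSpace ℝ (Fin n))).det ≠ 0}
  obtain ⟨j, hj⟩ : ∃ j, volume (S j) ≠ 0 := by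
    by_contra h
    push Not at h
    apply hk
    have hnull : volume ((⋃ j, S j) ∪ {x | ¬DifferentiableAt ℝ G x}) = 0 :=
      measure_union_null (measure_iUnion_null h) (ae_iff.1 hdiff)
    refine measure_mono_null (fun x hx => ?_) hnull
    by_cases hd : DifferentiableAt ℝ G x
    · obtain ⟨j, -, hj⟩ := exists_det_ne_zero (fderiv ℝ G x) c hc
      exact Or.inl (mem_iUnion.2 ⟨j, ⟨hx, hd⟩, hj⟩)
    · exact Or.inr hd
  have hSm : MeasurableSet (S j) := by
    refine ((hCm.inter (measurableSet_lt measurable_const measurable_norm)).inter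
      (measurableSet_of_differentiableAt ℝ G)).inter ?_
    have hm : Measurable fun x =>
        (fderiv ℝ G x + c j • ContinuousLinearMap.id ℝ (EuclideanSpace ℝ (Fin n))).det :=
      (ContinuousLinearMap.continuous_det.comp (continuous_id.add continuous_const)).measurable.comp
        (measurable_fderiv ℝ G)
    exact (hm (measurableSet_singleton 0)).compl
  have himg : (fun x => G x + c j • x) '' S j ⊆ K := by
    rintro _ ⟨x, ⟨⟨⟨hxC, hxε⟩, -⟩, -⟩, rfl⟩
    obtain ⟨h0, h1, e, he, hex⟩ := hmem x hxC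
    have hmax : max ‖x‖ ε = ‖x‖ := max_eq_left (le_of_lt hxε)
    have hGx : G x = a e := by
      simp only [hG, hmax, ← hex]
      exact (hag ⟨e, he, rfl⟩).symm
    have hxe : c j • x = (c j * ‖x‖) • (e : EuclideanSpace ℝ (Fin n)) := by
      rw [hex, smul_smul, mul_assoc, mul_inv_cancel₀ h0.ne', mul_one]
    have hc0 : 0 < c j := by positivity
    have hc1 : c j ≤ 1 := by
      simp only [c]
      rw [div_le_one (by positivity)]
      linarith [j.cast_nonneg (α := ℝ)]
    simp only [hGx, hxe]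
    exact hseg e he _ ⟨by positivity, by nlinarith⟩
  have hK : volume K ≠ 0 := fun h =>
    image_ne_zero (by omega) hSm hj
      (fun x hx => hx.1.2.hasFDerivAt.add ((hasFDerivAt_id x).const_smul (c j)))
      (fun x hx => hx.2) (measure_mono_null himg h)
  refine ⟨pos_iff_ne_zero.2 hK, le_antisymm ?_ ?_⟩
  · calc dimH K ≤ dimH (univ : Set (EuclideanSpace ℝ (Fin n))) := dimH_mono (subset_univ _)
      _ = n := by rw [Real.dimH_univ_eq_finrank, finrank_euclideanSpace_fin]
  · have hH : μH[((n : ℝ≥0) : ℝ)] K ≠ 0 := by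
      intro h
      apply hK
      have : Measure.IsAddHaarMeasure
          (μH[(finrank ℝ (EuclideanSpace ℝ (Fin n)) : ℝ)] :
            Measure (EuclideanSpace ℝ (Fin n))) := isAddHaarMeasure_hausdorffMeasure
      rw [finrank_euclideanSpace_fin] at this
      exact Measure.absolutelyContinuous_isAddHaarMeasure volume _ (by simpa using h)
    simpa using le_dimH_of_hausdorffMeasure_ne_zero hH

end Vale.Agent.Results.P127.LipschitzSelection
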